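import Mathlib.MeasureTheory.Integral.DominatedConvergence
import Mathlib.MeasureTheory.Integral.Bochner.Basic
import Mathlib.Analysis.SpecialFunctions.Pow.Real

/-!
# P365, zero-dimensional spectrum, Z10: a common sequence, and the Markov inequality for logarithms
-/

set_option autoImplicit false

namespace P365L.Z0.H662

open MeasureTheory Filter Topology
open scoped ENNReal

/-- A common sequence for all energies. -/
theorem diag {J : Set ℝ} (hJf : volume J ≠ ∞) (b : ℕ → ℕ → ℝ) (hb : ∀ r i, 0 < b r i)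
    (hb0 : ∀ r, Tendsto (b r) atTop (𝓝 0)) (g : ℝ → ℝ → ℝ → ℝ≥0∞)
    (hg : ∀ e, 0 < e → ∀ c, 0 < c → Measurable (g e c))
    (hg1 : ∀ e c E, g e c E ≤ 1)
    (hm : ∀ e e' c E, e ≤ e' → 0 < c → c ≤ 1 → g e' c E ≤ g e c E)
    (h : ∀ᵐ E ∂(volume.restrict J), ∃ R : ℕ, ∀ r ≥ R, ∀ e > 0,
      Tendsto (fun i => g e (b r i) E) atTop (𝓝 0)) :
    ∃ c : ℕ → ℝ, (∀ n, 0 < c n) ∧ (∀ n, c n < 1) ∧ Tendsto c atTop (𝓝 0) ∧
      ∀ e > 0, Tendsto (fun n => ∫⁻ E in J, g e (c n) E) atTop (𝓝 0) := by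
  have : IsFiniteMeasure (volume.restrict J) := ⟨by
    rw [Measure.restrict_apply_univ]
    exact lt_top_iff_ne_top.2 hJf⟩
  have h1fin : ∫⁻ _ in J, (1 : ℝ≥0∞) ≠ ∞ := by
    rw [lintegral_one, Measure.restrict_apply_univ]
    exact hJf
  -- the upper limits along the sequence `b r`
  have key : ∀ e > 0, ∀ η : ℝ≥0∞, 0 < η → ∃ r, ∀ᶠ i in atTop, ∫⁻ E in J, g e (b r i) E < η := by
    intro e he η hη
    set H : ℕ → ℝ → ℝ≥0∞ := fun r E => limsup (fun i => g e (b r i) E) atTop with hH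
    have hHm : ∀ r, Measurable (H r) := fun r => Measurable.limsup fun i => hg e he _ (hb r i)
    have hH1 : ∀ r E, H r E ≤ 1 := fun r E =>
      (limsup_le_limsup (Eventually.of_forall fun i => hg1 e (b r i) E)).trans (by simp)
    have hlim : Tendsto (fun r => ∫⁻ E in J, H r E) atTop (𝓝 (∫⁻ _ in J, (0 : ℝ≥0∞))) := by
      refine tendsto_lintegral_of_dominated_convergence (fun _ => 1) hHm
        (fun r => Eventually.of_forall fun E => hH1 r E) h1fin ?_
      filter_upwards [h] with E hE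
      obtain ⟨R, hR⟩ := hE
      refine tendsto_const_nhds.congr' ?_
      filter_upwards [eventually_ge_atTop R] with r hr
      exact ((hR r hr e he).limsup_eq).symm
    rw [lintegral_zero] at hlim
    obtain ⟨r, hr⟩ := (hlim.eventually (gt_mem_nhds hη)).exists
    refine ⟨r, ?_⟩
    have h2 : limsup (fun i => ∫⁻ E in J, g e (b r i) E) atTop ≤ ∫⁻ E in J, H r E :=
      limsup_lintegral_le (fun _ => 1) (fun i => hg e he _ (hb r i))
        (fun i => Eventually.of_forall fun E => hg1 e (b r i) E) h1fin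
    exact eventually_lt_of_limsup_lt (h2.trans_lt hr)
  have step : ∀ n : ℕ, ∃ c : ℝ, 0 < c ∧ c < 1 / ((n : ℝ) + 2) ∧
      ∫⁻ E in J, g (1 / ((n : ℝ) + 1)) c E < ((n : ℝ≥0∞) + 1)⁻¹ := by
    intro n
    obtain ⟨r, hr⟩ := key (1 / ((n : ℝ) + 1)) (by positivity) ((n : ℝ≥0∞) + 1)⁻¹
      (ENNReal.inv_pos.2 (by finiteness))
    obtain ⟨i, h1, h2⟩ := (hr.and ((hb0 r).eventually (gt_mem_nhds
      (show (0 : ℝ) < 1 / ((n : ℝ) + 2) by positivity)))).exists
    exact ⟨b r i, hb r i, h2, h1⟩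
  choose c hc0 hc1 hc2 using step
  have hc1' : ∀ n, c n < 1 := fun n => (hc1 n).trans_le (by
    rw [div_le_one (by positivity)]
    have : (0 : ℝ) ≤ n := by positivity
    linarith)
  refine ⟨c, hc0, hc1', ?_, ?_⟩
  · refine squeeze_zero (fun n => (hc0 n).le) (fun n => (hc1 n).le) ?_
    have := tendsto_one_div_add_atTop_nhds_zero_nat (𝕜 := ℝ)
    refine squeeze_zero (fun n => by positivity) (fun n => ?_) this
    exact one_div_le_one_div_of_le (by positivity) (by linarith)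
  · intro e he
    have hz : Tendsto (fun n : ℕ => ((n : ℝ≥0∞) + 1)⁻¹) atTop (𝓝 0) := by
      have h3 := (tendsto_add_atTop_iff_nat 1).2 ENNReal.tendsto_inv_nat_nhds_zero
      refine h3.congr fun n => ?_
      push_cast
      rfl
    refine tendsto_of_tendsto_of_tendsto_of_le_of_le' tendsto_const_nhds hz
      (Eventually.of_forall fun n => zero_le) ?_
    have h4 : ∀ᶠ n : ℕ in atTop, 1 / ((n : ℝ) + 1) < e :=
      (tendsto_one_div_add_atTop_nhds_zero_nat (𝕜 := ℝ)).eventually (gt_mem_nhds he)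
    filter_upwards [h4] with n hn
    exact (lintegral_mono fun E => hm _ _ _ E hn.le (hc0 n) (hc1' n).le).trans (hc2 n).le

/-- Markov's inequality for the logarithm. -/
theorem markov_log {Ω : Type*} [MeasurableSpace Ω] {P : Measure Ω} [IsProbabilityMeasure P]
    {w : Ω → ℝ} {b δ e : ℝ} (hb0 : 0 < b) (hb1 : b < 1) (hbw : ∀ ω, b ≤ w ω)
    (hi : Integrable (fun ω => Real.log (w ω)) P)
    (hl : ∫ ω, Real.log (w ω) ∂P ≤ -(1 - δ) * Real.log (1 / b)) (he : 0 < e) :
    P {ω | b ^ (1 - e) ≤ w ω} ≤ ENNReal.ofReal (δ / e) := by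
  have hL : 0 < Real.log (1 / b) := Real.log_pos (by rw [lt_div_iff₀ hb0]; linarith)
  have hLb : Real.log (1 / b) = -Real.log b := by rw [one_div, Real.log_inv]
  set X : Ω → ℝ := fun ω => Real.log (w ω) + Real.log (1 / b) with hX
  have hX0 : ∀ ω, 0 ≤ X ω := by
    intro ω
    have := Real.log_le_log hb0 (hbw ω)
    rw [hX, hLb]
    simp only
    linarith
  have hXi : Integrable X P := hi.add (integrable_const _)
  have hXe : ∫ ω, X ω ∂P ≤ δ * Real.log (1 / b) := by
    rw [hX, integral_add hi (integrable_const _), integral_const, probReal_univ, one_smul]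
    linarith
  have hsub : {ω | b ^ (1 - e) ≤ w ω} ⊆ {ω | e * Real.log (1 / b) ≤ X ω} := by
    intro ω hω
    have h1 := Real.log_le_log (Real.rpow_pos_of_pos hb0 _) hω
    rw [Real.log_rpow hb0] at h1
    show _ ≤ Real.log (w ω) + Real.log (1 / b)
    rw [hLb]
    linarith
  have h2 := mul_meas_ge_le_integral_of_nonneg (Eventually.of_forall hX0) hXi
    (e * Real.log (1 / b))
  have h3 : P.real {ω | e * Real.log (1 / b) ≤ X ω} ≤ δ / e := by
    rw [le_div_iff₀ he]
    have h4 : (P.real {ω | e * Real.log (1 / b) ≤ X ω} * e) * Real.log (1 / b) ≤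
        δ * Real.log (1 / b) := by
      calc _ = e * Real.log (1 / b) * P.real {ω | e * Real.log (1 / b) ≤ X ω} := by ring
        _ ≤ _ := h2.trans hXe
    exact le_of_mul_le_mul_right h4 hL
  calc P {ω | b ^ (1 - e) ≤ w ω} ≤ P {ω | e * Real.log (1 / b) ≤ X ω} := measure_mono hsub
    _ = ENNReal.ofReal (P.real {ω | e * Real.log (1 / b) ≤ X ω}) := by
        rw [measureReal_def, ENNReal.ofReal_toReal (measure_ne_top _ _)]
    _ ≤ _ := ENNReal.ofReal_le_ofReal h3

end P365L.Z0.H662
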