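import Vale.Agent.P365.Z0.H562.Defs
import Vale.Agent.P365.Z0.H662.Diag
import Vale.Agent.P365.Inf.Main

/-!
# P365, zero-dimensional spectrum, Z10: from the mean of `log w` at fixed energies to the averaged
estimate along one sequence
-/

set_option autoImplicit false

namespace P365L.Z0.H662

open MeasureTheory Complex Filter Topology P365L.Inf
open scoped ENNReal

theorem res_dl_pos (V : Site → ℝ) {z : ℂ} (hz : 0 < z.im) (x : Site) : 0 < ‖Res V z (dl x)‖ := by
  rw [norm_pos_iff]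
  intro h
  have h1 := res_spec V hz (dl x) x
  rw [h] at h1
  simp [hop, dl] at h1

/-- The diagonal entry is in the open upper half plane. -/
theorem gx_im_pos (V : Site → ℝ) {z : ℂ} (hz : 0 < z.im) (x : Site) : 0 < (gx V z x).im := by
  unfold gx
  rw [← res_im V hz x]
  have := res_dl_pos V hz x
  positivity

/-- `w ≥ Im z`. -/
theorem le_wx (V : Site → ℝ) {z : ℂ} (hz : 0 < z.im) (x : Site) : z.im ≤ wx V z x := by
  have h1 := gx_im_pos V hz x
  have h2 : 0 < ‖gx V z x‖ := norm_pos_iff.2 fun h => by simp [h] at h1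
  have h3 : ‖gx V z x‖ ≤ ‖Res V z (dl x)‖ := lp.norm_apply_le_norm (by norm_num) _ _
  unfold wx
  rw [le_div_iff₀ (by positivity)]
  have h4 : (gx V z x).im = z.im * ‖Res V z (dl x)‖ ^ 2 := (res_im V hz x).symm
  rw [h4]
  gcongr

theorem measurable_wx {Ω' : Type*} [MeasurableSpace Ω'] (V : Ω' → Site → ℝ) (z : Ω' → ℂ)
    (hV : ∀ x, Measurable fun ω => V ω x) (hz : Measurable z) (hz0 : ∀ ω, 0 < (z ω).im)
    (x : Site) : Measurable fun ω => wx (V ω) (z ω) x := by
  have h1 := measurable_Res V z hV hz hz0 x x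
  exact (Complex.measurable_im.comp h1).div (h1.norm.pow_const 2)

theorem im_add (E : ℝ) {c : ℝ} (hc : 0 < c) : 0 < ((E : ℂ) + c * I).im := by simpa using hc

/-- **The glue.** -/
theorem glue {Ω : Type*} [MeasurableSpace Ω] {P : Measure Ω} [IsProbabilityMeasure P]
    (V : Ω → Site → ℝ) (hV : ∀ y, Measurable fun ω => V ω y) (x : Site) {J : Set ℝ}
    (hJf : volume J ≠ ∞) (b : ℕ → ℕ → ℝ) (hb : ∀ r i, 0 < b r i)
    (hb0 : ∀ r, Tendsto (b r) atTop (𝓝 0))
    (h : ∀ᵐ E : ℝ ∂(volume.restrict J), ∃ R : ℕ, ∀ r ≥ R, ∀ δ > 0, ∀ᶠ i in atTop,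
      Integrable (fun ω => Real.log (wx (V ω) ((E : ℂ) + b r i * I) x)) P ∧
      ∫ ω, Real.log (wx (V ω) ((E : ℂ) + b r i * I) x) ∂P ≤
        -(1 - δ) * Real.log (1 / b r i)) :
    ∃ c : ℕ → ℝ, (∀ n, 0 < c n) ∧ (∀ n, c n < 1) ∧ Tendsto c atTop (𝓝 0) ∧
      ∀ e : ℝ, e > 0 → Tendsto (fun n => ∫⁻ E : ℝ in J,
        P {ω | c n ^ (1 - e) ≤ wx (V ω) ((E : ℂ) + c n * I) x}) atTop (𝓝 0) := by
  refine diag hJf b hb hb0 (fun e c E => P {ω | c ^ (1 - e) ≤ wx (V ω) ((E : ℂ) + c * I) x})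
    ?_ (fun e c E => prob_le_one) ?_ ?_
  · intro e _ c hc
    have h1 : Measurable fun p : ℝ × Ω => wx (V p.2) ((p.1 : ℂ) + c * I) x := by
      refine measurable_wx (fun p : ℝ × Ω => V p.2) (fun p => (p.1 : ℂ) + c * I)
        (fun y => (hV y).comp measurable_snd)
        ((Complex.measurable_ofReal.comp measurable_fst).add_const _) (fun p => im_add _ hc) x
    exact measurable_measure_prodMk_left (measurableSet_le measurable_const h1)
  · intro e e' c E he hc hc1
    refine measure_mono fun ω hω => ?_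
    exact (Real.rpow_le_rpow_of_exponent_ge hc hc1 (by linarith)).trans hω
  · filter_upwards [h] with E hE
    obtain ⟨R, hR⟩ := hE
    refine ⟨R, fun r hr e he => ?_⟩
    rw [ENNReal.tendsto_nhds_zero]
    intro η hη
    obtain ⟨t, ht0, htη⟩ : ∃ t : ℝ, 0 < t ∧ ENNReal.ofReal t ≤ η := by
      rcases eq_or_ne η ∞ with rfl | hne
      · exact ⟨1, one_pos, le_top⟩
      · exact ⟨η.toReal, ENNReal.toReal_pos hη.ne' hne, (ENNReal.ofReal_toReal hne).le⟩
    have hb1 : ∀ᶠ i in atTop, b r i < 1 := (hb0 r).eventually (gt_mem_nhds one_pos)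
    filter_upwards [hR r hr (e * t) (by positivity), hb1] with i ⟨h1, h2⟩ h3
    refine (markov_log (hb r i) h3 (fun ω => ?_) h1 h2 he).trans ?_
    · have := le_wx (V ω) (im_add E (hb r i)) x
      simpa using this
    · rw [mul_div_cancel_left₀ _ he.ne']
      exact htη

end P365L.Z0.H662
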