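import Mathlib.MeasureTheory.Measure.Lebesgue.Basic
import Mathlib.Analysis.Complex.Basic

/-!
# P365, zero-dimensional spectrum, Z3a: the sublevel sets of complex quadratic polynomials
-/

set_option autoImplicit false

namespace P365L.Z0.H662

open MeasureTheory Set
open scoped ENNReal

/-- The constant of the sublevel estimate. -/
noncomputable def cR (X l0 : ℝ) : ℝ := (l0 / 32) ^ 2 / (30 * (X + 1) ^ 2)

theorem cR_pos {X l0 : ℝ} (hX : 0 ≤ X) (hl : 0 < l0) : 0 < cR X l0 := by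
  unfold cR
  positivity

/-- Three separated points determine a quadratic polynomial. -/
theorem three_pts {Y d m : ℝ} (hY : 1 ≤ Y) (hd : 0 < d) (hd1 : d ≤ 1) {r0 r1 r2 : ℂ}
    {a b c : ℝ} (ha : |a| ≤ Y) (hb : |b| ≤ Y) (_hc : |c| ≤ Y) (hab : d ≤ |a - b|)
    (hac : d ≤ |a - c|) (hbc : d ≤ |b - c|)
    (qa : ‖r0 + r1 * a + r2 * a ^ 2‖ ≤ m) (qb : ‖r0 + r1 * b + r2 * b ^ 2‖ ≤ m)
    (qc : ‖r0 + r1 * c + r2 * c ^ 2‖ ≤ m) :
    d ^ 2 * (‖r0‖ + ‖r1‖ + ‖r2‖) ≤ 29 * Y ^ 2 * m := by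
  have hm : 0 ≤ m := (norm_nonneg _).trans qa
  have nrm : ∀ x y : ℝ, ‖((x : ℂ) - y)‖ = |x - y| := fun x y => by
    rw [← Complex.ofReal_sub, Complex.norm_real, Real.norm_eq_abs]
  -- first differences
  have e1 : ‖r1 + r2 * (a + b)‖ * d ≤ 2 * m := by
    have h1 : (r1 + r2 * (a + b)) * ((a : ℂ) - b) =
        (r0 + r1 * a + r2 * a ^ 2) - (r0 + r1 * b + r2 * b ^ 2) := by ring
    have h2 : ‖r1 + r2 * (a + b)‖ * |a - b| ≤ 2 * m := by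
      rw [← nrm, ← norm_mul, h1]
      exact (norm_sub_le _ _).trans (by linarith)
    exact (mul_le_mul_of_nonneg_left hab (norm_nonneg _)).trans h2
  have e2 : ‖r1 + r2 * (a + c)‖ * d ≤ 2 * m := by
    have h1 : (r1 + r2 * (a + c)) * ((a : ℂ) - c) =
        (r0 + r1 * a + r2 * a ^ 2) - (r0 + r1 * c + r2 * c ^ 2) := by ring
    have h2 : ‖r1 + r2 * (a + c)‖ * |a - c| ≤ 2 * m := by
      rw [← nrm, ← norm_mul, h1]
      exact (norm_sub_le _ _).trans (by linarith)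
    exact (mul_le_mul_of_nonneg_left hac (norm_nonneg _)).trans h2
  -- second difference
  have e3 : ‖r2‖ * d ^ 2 ≤ 4 * m := by
    have h1 : r2 * ((b : ℂ) - c) = (r1 + r2 * (a + b)) - (r1 + r2 * (a + c)) := by ring
    have h2 : ‖r2‖ * |b - c| * d ≤ 4 * m := by
      rw [← nrm, ← norm_mul, h1]
      calc ‖(r1 + r2 * (a + b)) - (r1 + r2 * (a + c))‖ * d
          ≤ (‖r1 + r2 * (a + b)‖ + ‖r1 + r2 * (a + c)‖) * d :=
            mul_le_mul_of_nonneg_right (norm_sub_le _ _) hd.le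
        _ ≤ 4 * m := by linarith
    calc ‖r2‖ * d ^ 2 = ‖r2‖ * d * d := by ring
      _ ≤ ‖r2‖ * |b - c| * d := by gcongr
      _ ≤ _ := h2
  have hdd : d ^ 2 ≤ d := by nlinarith
  have hdd1 : d ^ 2 ≤ 1 := by nlinarith
  have e4 : ‖r1‖ * d ^ 2 ≤ 10 * Y * m := by
    have h1 : ‖r1‖ ≤ ‖r1 + r2 * (a + b)‖ + ‖r2‖ * (2 * Y) := by
      have h2 : r1 = (r1 + r2 * (a + b)) - r2 * ((a : ℂ) + b) := by ring
      calc ‖r1‖ = ‖(r1 + r2 * (a + b)) - r2 * ((a : ℂ) + b)‖ := by rw [← h2]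
        _ ≤ ‖r1 + r2 * (a + b)‖ + ‖r2 * ((a : ℂ) + b)‖ := norm_sub_le _ _
        _ ≤ _ := by
          rw [norm_mul]
          gcongr
          rw [← Complex.ofReal_add, Complex.norm_real, Real.norm_eq_abs]
          exact (abs_add_le a b).trans (by linarith)
    calc ‖r1‖ * d ^ 2 ≤ (‖r1 + r2 * (a + b)‖ + ‖r2‖ * (2 * Y)) * d ^ 2 := by gcongr
      _ = ‖r1 + r2 * (a + b)‖ * d ^ 2 + (‖r2‖ * d ^ 2) * (2 * Y) := by ring
      _ ≤ 2 * m + (4 * m) * (2 * Y) := by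
          refine add_le_add ?_ (by gcongr)
          exact (mul_le_mul_of_nonneg_left hdd (norm_nonneg _)).trans e1
      _ ≤ 10 * Y * m := by nlinarith
  have e5 : ‖r0‖ * d ^ 2 ≤ 15 * Y ^ 2 * m := by
    have h1 : ‖r0‖ ≤ m + ‖r1‖ * Y + ‖r2‖ * Y ^ 2 := by
      have h2 : r0 = (r0 + r1 * a + r2 * a ^ 2) - r1 * a - r2 * a ^ 2 := by ring
      have h3 : ‖(a : ℂ)‖ ≤ Y := by rw [Complex.norm_real, Real.norm_eq_abs]; exact ha
      calc ‖r0‖ = ‖(r0 + r1 * a + r2 * a ^ 2) - r1 * a - r2 * a ^ 2‖ := by rw [← h2]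
        _ ≤ ‖(r0 + r1 * a + r2 * a ^ 2) - r1 * a‖ + ‖r2 * (a : ℂ) ^ 2‖ := norm_sub_le _ _
        _ ≤ ‖r0 + r1 * a + r2 * a ^ 2‖ + ‖r1 * (a : ℂ)‖ + ‖r2 * (a : ℂ) ^ 2‖ := by
          gcongr
          exact norm_sub_le _ _
        _ ≤ _ := by
          rw [norm_mul, norm_mul, norm_pow]
          gcongr
    calc ‖r0‖ * d ^ 2 ≤ (m + ‖r1‖ * Y + ‖r2‖ * Y ^ 2) * d ^ 2 := by gcongr
      _ = m * d ^ 2 + (‖r1‖ * d ^ 2) * Y + (‖r2‖ * d ^ 2) * Y ^ 2 := by ring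
      _ ≤ m * 1 + (10 * Y * m) * Y + (4 * m) * Y ^ 2 := by gcongr
      _ ≤ 15 * Y ^ 2 * m := by nlinarith [mul_nonneg hm (by nlinarith : (0 : ℝ) ≤ Y ^ 2 - 1)]
  have h6 : 10 * Y * m ≤ 10 * Y ^ 2 * m := by nlinarith [mul_nonneg hm (by nlinarith : (0 : ℝ) ≤ Y ^ 2 - Y)]
  have h7 : 4 * m ≤ 4 * Y ^ 2 * m := by nlinarith [mul_nonneg hm (by nlinarith : (0 : ℝ) ≤ Y ^ 2 - 1)]
  nlinarith

/-- **(R)** A complex quadratic polynomial is small only on a small part of the interval. -/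
theorem sublevel {X l0 x0 : ℝ} (hX : 0 ≤ X) (hl : 0 < l0) (hl1 : l0 ≤ 1)
    (h1 : -(X + 1) ≤ x0 - l0) (h2 : x0 + l0 ≤ X + 1) (r0 r1 r2 : ℂ) :
    volume {x : ℝ | x ∈ Icc (x0 - l0) (x0 + l0) ∧
      ‖r0 + r1 * x + r2 * x ^ 2‖ < cR X l0 * (‖r0‖ + ‖r1‖ + ‖r2‖)} ≤ ENNReal.ofReal (l0 / 8) := by
  set A := {x : ℝ | x ∈ Icc (x0 - l0) (x0 + l0) ∧
      ‖r0 + r1 * x + r2 * x ^ 2‖ < cR X l0 * (‖r0‖ + ‖r1‖ + ‖r2‖)} with hA
  by_contra hlt
  rw [not_le] at hlt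
  set d := l0 / 32 with hd
  have hd0 : 0 < d := by positivity
  have hvol : ∀ a : ℝ, volume (Icc (a - d) (a + d)) = ENNReal.ofReal (2 * d) := fun a => by
    rw [Real.volume_Icc]
    congr 1
    ring
  -- three separated points
  obtain ⟨a, ha⟩ : A.Nonempty := by
    rw [nonempty_iff_ne_empty]
    intro h
    rw [h, measure_empty] at hlt
    exact not_lt_bot hlt
  obtain ⟨b, hb, hab⟩ : ∃ b ∈ A, b ∉ Icc (a - d) (a + d) := by
    by_contra hcon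
    push Not at hcon
    refine absurd (measure_mono hcon : volume A ≤ _) (not_le.2 ?_)
    rw [hvol]
    refine lt_of_le_of_lt (ENNReal.ofReal_le_ofReal ?_) hlt
    linarith
  obtain ⟨c, hc, hcab⟩ : ∃ c ∈ A, c ∉ Icc (a - d) (a + d) ∪ Icc (b - d) (b + d) := by
    by_contra hcon
    push Not at hcon
    refine absurd (measure_mono hcon : volume A ≤ _) (not_le.2 ?_)
    refine lt_of_le_of_lt (measure_union_le _ _) ?_
    rw [hvol, hvol, ← ENNReal.ofReal_add (by positivity) (by positivity)]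
    refine lt_of_le_of_lt (ENNReal.ofReal_le_ofReal ?_) hlt
    linarith
  have sep : ∀ u v : ℝ, v ∉ Icc (u - d) (u + d) → d ≤ |u - v| := by
    intro u v h
    by_contra hcon
    rw [not_le, abs_lt] at hcon
    exact h ⟨by linarith, by linarith⟩
  have bd : ∀ u ∈ A, |u| ≤ X + 1 := fun u hu => by
    rw [abs_le]
    exact ⟨h1.trans hu.1.1, hu.1.2.trans h2⟩
  rw [mem_union, not_or] at hcab
  have key := three_pts (Y := X + 1) (d := d) (m := cR X l0 * (‖r0‖ + ‖r1‖ + ‖r2‖)) (by linarith)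
    hd0 (by linarith) (bd a ha) (bd b hb) (bd c hc) (sep a b hab) (sep a c hcab.1)
    (sep b c hcab.2) ha.2.le hb.2.le hc.2.le
  have hM : 0 < ‖r0‖ + ‖r1‖ + ‖r2‖ := by
    have h3 : 0 < cR X l0 * (‖r0‖ + ‖r1‖ + ‖r2‖) := (norm_nonneg _).trans_lt ha.2
    exact pos_of_mul_pos_right h3 (cR_pos hX hl).le
  have h4 : 29 * (X + 1) ^ 2 * (cR X l0 * (‖r0‖ + ‖r1‖ + ‖r2‖)) =
      29 / 30 * (d ^ 2 * (‖r0‖ + ‖r1‖ + ‖r2‖)) := by
    have : (X + 1) ^ 2 ≠ 0 := by positivity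
    unfold cR
    rw [← hd]
    field_simp
  rw [h4] at key
  have h5 : 0 < d ^ 2 * (‖r0‖ + ‖r1‖ + ‖r2‖) := by positivity
  linarith

end P365L.Z0.H662
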